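import Vale.Agent.Lib.P012.helper91.Defs

namespace Vale.Agent.Lib.P012.H91

theorem practical_two_pow (k : ℕ) : IsPractical k (2 ^ k) := by
  induction k with
  | zero =>
    intro m hm
    refine ⟨∅, by simp, by simp, ?_⟩
    simp at hm
    simp [hm]
  | succ k ih =>
    intro m hm
    by_cases h : m < 2 ^ k
    · obtain ⟨D, hc, hd, hs⟩ := ih m h
      refine ⟨D, by omega, ?_, hs⟩
      intro d hdD
      exact Dvd.dvd.mul_right (hd d hdD) 2
    · have hm' : m - 2 ^ k < 2 ^ k := by
        rw [pow_succ] at hm; omega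
      obtain ⟨D, hc, hd, hs⟩ := ih (m - 2 ^ k) hm'
      have hnot : 2 ^ k ∉ D := by
        intro hmem
        have : 2 ^ k ≤ ∑ d ∈ D, d := Finset.single_le_sum (fun i _ => Nat.zero_le i) hmem
        omega
      refine ⟨insert (2 ^ k) D, ?_, ?_, ?_⟩
      · rw [Finset.card_insert_of_notMem hnot]; omega
      · intro d hdD
        rw [Finset.mem_insert] at hdD
        rcases hdD with rfl | hdD
        · exact Dvd.intro 2 rfl
        · exact Dvd.dvd.mul_right (hd d hdD) 2
      · rw [Finset.sum_insert hnot, hs]; omega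

theorem practical_adjoin {F M p : ℕ} (hM : IsPractical F M) (hp : p.Prime) (hpM : ¬ p ∣ M)
    (hle : p ≤ M) : IsPractical (2 * F) (M * p) := by
  classical
  intro m hm
  have hppos : 0 < p := hp.pos
  have hq : m / p < M := by
    rw [Nat.div_lt_iff_lt_mul hppos]; exact hm
  have hr : m % p < M := lt_of_lt_of_le (Nat.mod_lt _ hppos) hle
  obtain ⟨D1, hc1, hd1, hs1⟩ := hM (m / p) hq
  obtain ⟨D2, hc2, hd2, hs2⟩ := hM (m % p) hr
  have hinj : Set.InjOn (fun d => p * d) (D1 : Set ℕ) := by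
    intro d _ d' _ h
    exact Nat.eq_of_mul_eq_mul_left hppos h
  have hdisj : Disjoint (D1.image (fun d => p * d)) D2 := by
    rw [Finset.disjoint_left]
    intro n hn1 hn2
    rw [Finset.mem_image] at hn1
    obtain ⟨d, _, rfl⟩ := hn1
    exact hpM (Dvd.dvd.trans (Dvd.intro d rfl) (hd2 _ hn2))
  refine ⟨D1.image (fun d => p * d) ∪ D2, ?_, ?_, ?_⟩
  · calc (D1.image (fun d => p * d) ∪ D2).card
        ≤ (D1.image (fun d => p * d)).card + D2.card := Finset.card_union_le _ _
      _ ≤ D1.card + D2.card := Nat.add_le_add_right Finset.card_image_le _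
      _ ≤ 2 * F := by omega
  · intro n hn
    rw [Finset.mem_union, Finset.mem_image] at hn
    rcases hn with ⟨d, hd, rfl⟩ | hn
    · rw [Nat.mul_comm p d]
      exact Nat.mul_dvd_mul_right (hd1 d hd) p
    · exact Dvd.dvd.mul_right (hd2 n hn) p
  · rw [Finset.sum_union hdisj, Finset.sum_image hinj, ← Finset.mul_sum, hs1, hs2]
    exact Nat.div_add_mod m p

theorem practical_base (k : ℕ) (S : Finset ℕ) (hS : ∀ p ∈ S, p.Prime ∧ p ≠ 2 ∧ p < 2 ^ k) :
    IsPractical (k * 2 ^ S.card) (2 ^ k * ∏ p ∈ S, p) := by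
  classical
  induction S using Finset.induction_on with
  | empty =>
    simpa using practical_two_pow k
  | insert p S hpS ih =>
    have hS' : ∀ q ∈ S, q.Prime ∧ q ≠ 2 ∧ q < 2 ^ k := fun q hq => hS q (Finset.mem_insert_of_mem hq)
    have ih' := ih hS'
    obtain ⟨hp, hp2, hpk⟩ := hS p (Finset.mem_insert_self p S)
    have hprodpos : 0 < ∏ q ∈ S, q := Finset.prod_pos (fun q hq => (hS' q hq).1.pos)
    have hle : p ≤ 2 ^ k * ∏ q ∈ S, q := by
      have : 2 ^ k * 1 ≤ 2 ^ k * ∏ q ∈ S, q := Nat.mul_le_mul_left _ hprodpos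
      omega
    have hndvd : ¬ p ∣ 2 ^ k * ∏ q ∈ S, q := by
      intro hdvd
      rcases (Nat.Prime.dvd_mul hp).mp hdvd with h | h
      · have h2 := Nat.Prime.dvd_of_dvd_pow hp h
        exact hp2 ((Nat.prime_dvd_prime_iff_eq hp Nat.prime_two).mp h2)
      · obtain ⟨q, hq, hpq⟩ := (Prime.dvd_finsetProd_iff (Nat.Prime.prime hp) _).mp h
        have : p = q := (Nat.prime_dvd_prime_iff_eq hp (hS' q hq).1).mp hpq
        exact hpS (this ▸ hq)
    have key := practical_adjoin ih' hp hndvd hle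
    have e1 : 2 * (k * 2 ^ S.card) = k * 2 ^ (insert p S).card := by
      rw [Finset.card_insert_of_notMem hpS, pow_succ]; ring
    rw [e1] at key
    have e3 : 2 ^ k * (∏ q ∈ S, q) * p = 2 ^ k * ∏ q ∈ insert p S, q := by
      rw [Finset.prod_insert hpS]; ring
    rw [e3] at key
    exact key

end Vale.Agent.Lib.P012.H91
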