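import Vale.Agent.Lib.P012.helper91.Defs

namespace Vale.Agent.Lib.P012.H91

theorem erdos_reduction {F N a b : ℕ} (hN : IsPractical F N) (hb : b ≤ N) (ha : 1 ≤ a)
    (hab : a < b) :
    ∃ S : Finset ℕ, S.card ≤ 2 * F ∧ (∀ n ∈ S, 2 ≤ n) ∧
      ∑ n ∈ S, (1 : ℚ) / (n : ℚ) = (a : ℚ) / (b : ℚ) := by
  classical
  have hbpos : 0 < b := by omega
  have hNpos : 0 < N := by omega
  have hN0 : N ≠ 0 := by omega
  -- division with remainder
  set q := a * N / b with hq
  set r := a * N % b with hr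
  have hdiv : a * N = q * b + r := by
    rw [hq, hr]; exact (Nat.div_add_mod' (a * N) b).symm
  have hrb : r < b := Nat.mod_lt _ hbpos
  have hqN : q < N := by
    rw [hq, Nat.div_lt_iff_lt_mul hbpos, Nat.mul_comm N b]
    exact Nat.mul_lt_mul_of_pos_right hab hNpos
  have hrN : r < N := lt_of_lt_of_le hrb hb
  obtain ⟨D1, hD1card, hD1dvd, hD1sum⟩ := hN q hqN
  obtain ⟨D2, hD2card, hD2dvd, hD2sum⟩ := hN r hrN
  have hpos1 : ∀ d ∈ D1, 0 < d := fun d hd =>
    Nat.pos_of_ne_zero (fun h0 => hN0 (by have := hD1dvd d hd; rw [h0] at this; exact Nat.eq_zero_of_zero_dvd this))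
  have hpos2 : ∀ d ∈ D2, 0 < d := fun d hd =>
    Nat.pos_of_ne_zero (fun h0 => hN0 (by have := hD2dvd d hd; rw [h0] at this; exact Nat.eq_zero_of_zero_dvd this))
  have hle1 : ∀ d ∈ D1, d ≤ q := fun d hd => by
    rw [← hD1sum]; exact Finset.single_le_sum (fun i _ => Nat.zero_le i) hd
  have hle2 : ∀ d ∈ D2, d ≤ r := fun d hd => by
    rw [← hD2sum]; exact Finset.single_le_sum (fun i _ => Nat.zero_le i) hd
  -- injectivity of d ↦ N / d on divisors
  have hinj : ∀ d d', d ∣ N → d' ∣ N → N / d = N / d' → d = d' := by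
    intro d d' hd hd' h
    have h1 := Nat.div_div_self hd hN0
    have h2 := Nat.div_div_self hd' hN0
    rw [h] at h1
    omega
  have hinj1 : Set.InjOn (fun d => N / d) (D1 : Set ℕ) := by
    intro d hd d' hd' h
    exact hinj d d' (hD1dvd d hd) (hD1dvd d' hd') h
  have hinj2 : Set.InjOn (fun d => b * (N / d)) (D2 : Set ℕ) := by
    intro d hd d' hd' h
    have h' : N / d = N / d' := Nat.eq_of_mul_eq_mul_left hbpos h
    exact hinj d d' (hD2dvd d hd) (hD2dvd d' hd') h'
  have hdisj : Disjoint (D1.image (fun d => N / d)) (D2.image (fun d => b * (N / d))) := by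
    rw [Finset.disjoint_left]
    intro n hn1 hn2
    rw [Finset.mem_image] at hn1 hn2
    obtain ⟨d, hd, rfl⟩ := hn1
    obtain ⟨d', hd', h⟩ := hn2
    -- N / d = b * (N / d')
    have e1 : d * (N / d) = N := Nat.mul_div_cancel' (hD1dvd d hd)
    have e2 : d' * (N / d') = N := Nat.mul_div_cancel' (hD2dvd d' hd')
    have hk' : 0 < N / d' := Nat.div_pos (Nat.le_of_dvd hNpos (hD2dvd d' hd')) (hpos2 d' hd')
    have e3 : d' * (N / d') = (d * b) * (N / d') := by
      rw [e2, mul_assoc, h, e1]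
    have e4 : d' = d * b := Nat.eq_of_mul_eq_mul_right hk' e3
    have h5 : b ≤ d * b := Nat.le_mul_of_pos_left b (hpos1 d hd)
    have h6 := hle2 d' hd'
    omega
  refine ⟨D1.image (fun d => N / d) ∪ D2.image (fun d => b * (N / d)), ?_, ?_, ?_⟩
  · calc (D1.image (fun d => N / d) ∪ D2.image (fun d => b * (N / d))).card
        ≤ (D1.image (fun d => N / d)).card + (D2.image (fun d => b * (N / d))).card :=
          Finset.card_union_le _ _
      _ ≤ D1.card + D2.card := Nat.add_le_add Finset.card_image_le Finset.card_image_le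
      _ ≤ 2 * F := by omega
  · intro n hn
    rw [Finset.mem_union, Finset.mem_image, Finset.mem_image] at hn
    rcases hn with ⟨d, hd, rfl⟩ | ⟨d, hd, rfl⟩
    · have hdN : d < N := lt_of_le_of_lt (hle1 d hd) hqN
      have e1 : d * (N / d) = N := Nat.mul_div_cancel' (hD1dvd d hd)
      by_contra hlt
      have : N / d ≤ 1 := by omega
      have : d * (N / d) ≤ d * 1 := Nat.mul_le_mul_left d this
      omega
    · have hk' : 0 < N / d := Nat.div_pos (Nat.le_of_dvd hNpos (hD2dvd d hd)) (hpos2 d hd)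
      have : b * 1 ≤ b * (N / d) := Nat.mul_le_mul_left b hk'
      omega
  · rw [Finset.sum_union hdisj, Finset.sum_image hinj1, Finset.sum_image hinj2]
    have hNq : (N : ℚ) ≠ 0 := by exact_mod_cast hN0
    have hbq : (b : ℚ) ≠ 0 := by exact_mod_cast hbpos.ne'
    have s1 : ∑ d ∈ D1, (1 : ℚ) / ((N / d : ℕ) : ℚ) = (q : ℚ) / N := by
      have : ∀ d ∈ D1, (1 : ℚ) / ((N / d : ℕ) : ℚ) = (d : ℚ) / N := by
        intro d hd
        have hdq : (d : ℚ) ≠ 0 := by exact_mod_cast (hpos1 d hd).ne'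
        rw [Nat.cast_div (hD1dvd d hd) hdq]
        field_simp
      rw [Finset.sum_congr rfl this, ← Finset.sum_div, ← hD1sum]
      push_cast
      rfl
    have s2 : ∑ d ∈ D2, (1 : ℚ) / ((b * (N / d) : ℕ) : ℚ) = (r : ℚ) / (b * N) := by
      have : ∀ d ∈ D2, (1 : ℚ) / ((b * (N / d) : ℕ) : ℚ) = (d : ℚ) / (b * N) := by
        intro d hd
        have hdq : (d : ℚ) ≠ 0 := by exact_mod_cast (hpos2 d hd).ne'
        rw [Nat.cast_mul, Nat.cast_div (hD2dvd d hd) hdq]
        field_simp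
      rw [Finset.sum_congr rfl this, ← Finset.sum_div, ← hD2sum]
      push_cast
      rfl
    rw [s1, s2]
    have hdivq : (a : ℚ) * N = q * b + r := by exact_mod_cast hdiv
    field_simp
    linarith

end Vale.Agent.Lib.P012.H91
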